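import Vale.Agent.P188.H131.GeoRay

/-!
# P188, route B: the neutral elements (fields `Y0`, `Y_inv`, `Y_ls`, `Y_path`, `Y_net` of `H532.Geo`)

`Y0 c r` = exponentials of neutral vectors of size `c exp (c r)`.
-/

set_option linter.all false

open MeasureTheory Set
open Vale.P188.H532 (ob ls)

namespace Vale.Agent.P188.Z1

namespace RModel

variable {S : Type} [Group S] [MeasurableSpace S] {Γ : Type} [Group Γ]
  {V : Type} [AddCommGroup V] [Module ℝ V] {k : ℕ} (M : RModel S Γ V k)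

/-- the exponentials of neutral vectors of size `c exp (c r)`, in `N_R` -/
def gY (c r : ℝ) : Set M.NR := {y | ∃ v ∈ M.Vw 0, M.nm v ≤ c * Real.exp (c * r) ∧ M.ex v = y}

theorem gY_mono {c c' r r' : ℝ} (hc : 0 ≤ c) (h : c ≤ c') (hr : 0 ≤ r) (hr' : r ≤ r') :
    M.gY c r ⊆ M.gY c' r' := by
  rintro y ⟨v, hv, hn, e⟩
  refine ⟨v, hv, hn.trans ?_, e⟩
  refine mul_le_mul h (Real.exp_le_exp.mpr (mul_le_mul h hr' hr (hc.trans h)))
    (Real.exp_pos _).le (hc.trans h)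

/-- `Y_mono` -/
theorem gY_mono' {c : ℝ} (hc : 0 ≤ c) (r r' : ℝ) (h : r ≤ r') : M.gY c r ⊆ M.gY c r' := by
  rintro y ⟨v, hv, hn, e⟩
  refine ⟨v, hv, hn.trans ?_, e⟩
  exact mul_le_mul_of_nonneg_left (Real.exp_le_exp.mpr (mul_le_mul_of_nonneg_left h hc)) hc

/-- `Y_inv` -/
theorem gY_inv (c r : ℝ) : ∀ y ∈ M.gY c r, y⁻¹ ∈ M.gY c r := by
  rintro y ⟨v, hv, hn, e⟩
  refine ⟨-v, neg_mem hv, by rwa [map_neg_eq_map], ?_⟩
  rw [M.ex_neg, e]
  rfl

/-- `Y_ls` -/
theorem gY_ls {J : Type} (P : H615.RayD M J) {c : ℝ} (hc : 1 ≤ c) (ρ : Option J → ℝ) (a : M.ι)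
    (x : ℝ)
    (hρ : ∀ j, 0 ≤ ρ j) (ha : P.ray a = none) (hx : |x| ≤ 1) :
    ls P.ray P.τ M.gs ρ a x ∈ M.gY c (ρ none) := by
  have h0 : M.wt a = 0 := P.wt_none a ha
  refine ⟨(Real.exp (P.τ a * ρ (P.ray a)) * x) • M.X a, ?_, ?_, rfl⟩
  · have := Submodule.smul_mem _ (Real.exp (P.τ a * ρ (P.ray a)) * x) (M.X_mem a)
    rwa [h0] at this
  · rw [P.τ_none a ha, ha, one_mul, map_smul_eq_mul, Real.norm_eq_abs, abs_mul,
      abs_of_pos (Real.exp_pos _)]
    have h1 := M.X_le a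
    have h2 : 0 ≤ M.nm (M.X a) := apply_nonneg _ _
    have h3 : Real.exp (ρ none) ≤ c * Real.exp (c * ρ none) := by
      have : Real.exp (ρ none) ≤ Real.exp (c * ρ none) :=
        Real.exp_le_exp.mpr (le_mul_of_one_le_left (hρ none) hc)
      have h4 := Real.exp_pos (c * ρ none)
      nlinarith
    calc Real.exp (ρ none) * |x| * M.nm (M.X a) ≤ Real.exp (ρ none) * 1 * 1 := by
          refine mul_le_mul (mul_le_mul_of_nonneg_left hx (Real.exp_pos _).le) h1 h2 (by positivity)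
      _ ≤ _ := by rw [mul_one, mul_one]; exact h3

theorem exp_bound {c : ℝ} (hc : 1 ≤ c) {r : ℝ} (hr : 0 ≤ r) :
    c * Real.exp (c * r) ≤ Real.exp (2 * c * (r + 1)) := by
  have h1 : c ≤ Real.exp c := by have := Real.add_one_le_exp c; linarith
  calc c * Real.exp (c * r) ≤ Real.exp c * Real.exp (c * r) :=
        mul_le_mul_of_nonneg_right h1 (Real.exp_pos _).le
    _ = Real.exp (c * (r + 1)) := by rw [← Real.exp_add]; congr 1; ring
    _ ≤ _ := Real.exp_le_exp.mpr (by nlinarith)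

/-- `Y_path` -/
theorem gY_path {c : ℝ} (hc : 1 ≤ c) : ∃ C : ℝ, 1 ≤ C ∧ ∀ r : ℝ, 0 ≤ r → ∀ y ∈ M.gY c r,
    ∃ (m : ℕ) (p : ℕ → M.NR), (m : ℝ) ≤ Real.exp (C * (r + 1)) ∧ p 0 = 1 ∧ p m = y ∧
      (∀ i, p i ∈ M.gY c r) ∧ ∀ i, (M.l (M.NR.subtype ((p i)⁻¹ * p (i + 1))) : ℝ) ≤ C := by
  have hC0 := M.one_le_C0
  refine ⟨2 * c + 1 + 2 * M.C0, by linarith, ?_⟩
  rintro r hr y ⟨v, hv, hn, e⟩
  set m : ℕ := ⌈c * Real.exp (c * r)⌉₊ with hm
  have hc1 : 1 ≤ c * Real.exp (c * r) := by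
    have : 1 ≤ Real.exp (c * r) := Real.one_le_exp (by positivity)
    nlinarith
  have hm1 : c * Real.exp (c * r) ≤ m := Nat.le_ceil _
  have hm0 : (0:ℝ) < m := by linarith
  have hm2 : (m : ℝ) ≤ 2 * (c * Real.exp (c * r)) := by
    have := (Nat.ceil_lt_add_one (show 0 ≤ c * Real.exp (c * r) by positivity)).le
    rw [hm]; linarith
  set f : ℕ → ℝ := fun i => (min i m : ℕ) / (m : ℝ) with hf
  have hf0 : ∀ i, 0 ≤ f i := fun i => by positivity
  have hf1 : ∀ i, f i ≤ 1 := fun i => by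
    rw [hf]
    simp only
    rw [div_le_one hm0]
    exact_mod_cast min_le_right _ _
  have hstep : ∀ i, |f (i + 1) - f i| ≤ 1 / m := by
    intro i
    have e1 : f (i + 1) - f i = (((min (i + 1) m : ℕ) : ℝ) - (min i m : ℕ)) / m := by
      rw [hf]; simp only; ring
    rw [e1, abs_div, abs_of_pos hm0]
    refine div_le_div_of_nonneg_right ?_ hm0.le
    rcases le_total (i + 1) m with h | h
    · rw [min_eq_left h, min_eq_left (by omega)]
      push_cast
      rw [abs_le]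
      constructor <;> linarith
    · rw [min_eq_right h]
      rcases le_total i m with h' | h'
      · rw [min_eq_left h']
        have h2 : (m : ℝ) ≤ i + 1 := by exact_mod_cast h
        have h3 : (i : ℝ) ≤ m := by exact_mod_cast h'
        rw [abs_le]
        constructor <;> linarith
      · rw [min_eq_right h']
        simp
  refine ⟨m, fun i => ⟨M.ex (f i • v), M.mem_NR.2 (M.η_ex _)⟩, ?_, ?_, ?_, ?_, ?_⟩
  · have h1 := exp_bound hc hr
    calc (m : ℝ) ≤ 2 * (c * Real.exp (c * r)) := hm2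
      _ ≤ Real.exp 1 * Real.exp (2 * c * (r + 1)) := by
          have h2 : (2:ℝ) ≤ Real.exp 1 := by have := Real.add_one_le_exp (1 : ℝ); linarith
          exact mul_le_mul h2 h1 (by positivity) (Real.exp_pos _).le
      _ = Real.exp (1 + 2 * c * (r + 1)) := by rw [← Real.exp_add]
      _ ≤ _ := Real.exp_le_exp.mpr (by nlinarith)
  · apply Subtype.ext
    show M.ex (f 0 • v) = 1
    have : f 0 = 0 := by simp [hf]
    rw [this, zero_smul, M.ex_zero]
  · apply Subtype.ext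
    show M.ex (f m • v) = y
    have : f m = 1 := by
      simp only [hf, min_self]
      exact div_self hm0.ne'
    rw [this, one_smul, e]
  · intro i
    refine ⟨f i • v, Submodule.smul_mem _ _ hv, ?_, rfl⟩
    rw [map_smul_eq_mul, Real.norm_eq_abs, abs_of_nonneg (hf0 i)]
    exact (mul_le_of_le_one_left (apply_nonneg _ _) (hf1 i)).trans hn
  · intro i
    show (M.l ((M.ex (f i • v))⁻¹ * M.ex (f (i + 1) • v)) : ℝ) ≤ _
    have e1 : (M.ex (f i • v))⁻¹ * M.ex (f (i + 1) • v) = M.ex ((f (i + 1) - f i) • v) := by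
      rw [← M.ex_neg, ← neg_smul, ← M.ex_add]
      congr 2
      ring
    rw [e1]
    have h1 := M.met_V ((f (i + 1) - f i) • v)
    have h2 : M.nm ((f (i + 1) - f i) • v) ≤ 1 := by
      rw [map_smul_eq_mul, Real.norm_eq_abs]
      have h3 : M.nm v ≤ m := hn.trans hm1
      calc |f (i + 1) - f i| * M.nm v ≤ 1 / m * m :=
            mul_le_mul (hstep i) h3 (apply_nonneg _ _) (by positivity)
        _ = 1 := by field_simp
    nlinarith

/-! ### nets -/

/-- product of two neutral elements of exponential size -/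
theorem neut_mul_exp {a : ℝ} (ha : 0 ≤ a) : ∃ a' : ℝ, a ≤ a' ∧ ∀ r : ℝ, 0 ≤ r → ∀ v ∈ M.Vw 0,
    ∀ w ∈ M.Vw 0, M.nm v ≤ Real.exp (a * (r + 1)) → M.nm w ≤ Real.exp (a * (r + 1)) →
    ∃ u ∈ M.Vw 0, M.ex u = M.ex v * M.ex w ∧ M.nm u ≤ Real.exp (a' * (r + 1)) := by
  have hC0 := M.one_le_C0
  have h3 : 1 ≤ M.C0 * 3 ^ M.C0 := by
    have : (1:ℝ) ≤ 3 ^ M.C0 := Real.one_le_rpow (by norm_num) (by linarith)
    nlinarith
  have hlog : 0 ≤ Real.log (M.C0 * 3 ^ M.C0) := Real.log_nonneg h3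
  refine ⟨Real.log (M.C0 * 3 ^ M.C0) + M.C0 * a, by nlinarith, ?_⟩
  intro r hr v hv w hw h1 h2
  obtain ⟨u, hu, hue, hun⟩ := M.ex_mul0 hv hw
  refine ⟨u, hu, hue, hun.trans ?_⟩
  have e0 : 1 ≤ Real.exp (a * (r + 1)) := Real.one_le_exp (by positivity)
  have n1 : 0 ≤ M.nm v := apply_nonneg _ _
  have n2 : 0 ≤ M.nm w := apply_nonneg _ _
  have e1 : 1 + M.nm v + M.nm w ≤ 3 * Real.exp (a * (r + 1)) := by linarith
  calc M.C0 * (1 + M.nm v + M.nm w) ^ M.C0 ≤ M.C0 * (3 * Real.exp (a * (r + 1))) ^ M.C0 := by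
        refine mul_le_mul_of_nonneg_left ?_ (by linarith)
        exact Real.rpow_le_rpow (by positivity) e1 (by linarith)
    _ = Real.exp (Real.log (M.C0 * 3 ^ M.C0)) * Real.exp (M.C0 * (a * (r + 1))) := by
        rw [Real.mul_rpow (by norm_num) (by positivity), ← Real.exp_mul,
          Real.exp_log (by positivity)]
        ring_nf
    _ = Real.exp (Real.log (M.C0 * 3 ^ M.C0) + M.C0 * (a * (r + 1))) := by rw [← Real.exp_add]
    _ ≤ _ := Real.exp_le_exp.mpr (by nlinarith)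

/-- products of a bounded number of neutral elements of exponential size -/
theorem neut_list_exp (m : ℕ) : ∀ a : ℝ, 0 ≤ a → ∃ a' : ℝ, a ≤ a' ∧ ∀ r : ℝ, 0 ≤ r →
    ∀ L : List S, L.length ≤ m →
    (∀ z ∈ L, ∃ v ∈ M.Vw 0, M.ex v = z ∧ M.nm v ≤ Real.exp (a * (r + 1))) →
    ∃ u ∈ M.Vw 0, M.ex u = L.prod ∧ M.nm u ≤ Real.exp (a' * (r + 1)) := by
  induction m with
  | zero =>
    intro a ha
    refine ⟨a, le_rfl, fun r hr L hL _ => ⟨0, Submodule.zero_mem _, ?_, ?_⟩⟩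
    · have : L = [] := List.eq_nil_of_length_eq_zero (by omega)
      rw [this, List.prod_nil, M.ex_zero]
    · rw [map_zero]; exact (Real.exp_pos _).le
  | succ m ih =>
    intro a ha
    obtain ⟨a₁, ha₁, h1⟩ := ih a ha
    obtain ⟨a₂, ha₂, h2⟩ := M.neut_mul_exp (ha.trans ha₁)
    refine ⟨a₂, ha₁.trans ha₂, fun r hr L hL hLm => ?_⟩
    cases L with
    | nil =>
      refine ⟨0, Submodule.zero_mem _, ?_, ?_⟩
      · rw [List.prod_nil, M.ex_zero]
      · rw [map_zero]; exact (Real.exp_pos _).le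
    | cons z L =>
      rw [List.length_cons] at hL
      obtain ⟨u, hu, hue, hun⟩ := h1 r hr L (by omega) fun z hz => hLm z (List.mem_cons_of_mem _ hz)
      obtain ⟨v, hv, hve, hvn⟩ := hLm z (List.mem_cons_self ..)
      obtain ⟨w, hw, hwe, hwn⟩ := h2 r hr v hv u hu
        (hvn.trans (Real.exp_le_exp.mpr (mul_le_mul_of_nonneg_right ha₁ (by linarith)))) hun
      exact ⟨w, hw, by rw [List.prod_cons, hwe, hve, hue], hwn⟩

/-- two words with close coefficients are close -/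
theorem close_words (m : ℕ) : ∀ a : ℝ, 0 ≤ a → ∃ a' : ℝ, 0 ≤ a' ∧ ∀ r : ℝ, 0 ≤ r →
    ∀ (L : List (M.ι × ℝ × ℝ)), L.length ≤ m → (∀ q ∈ L, M.wt q.1 = 0) →
    (∀ q ∈ L, |q.2.1| ≤ Real.exp (a * (r + 1)) ∧ |q.2.2 - q.2.1| ≤ Real.exp (-(a' * (r + 1)))) →
    (M.l ((L.map fun q => M.ex (q.2.2 • M.X q.1)).prod⁻¹ *
      (L.map fun q => M.ex (q.2.1 • M.X q.1)).prod) : ℝ) ≤ L.length * (2 * M.C0) := by
  intro a ha
  have hC0 := M.one_le_C0
  obtain ⟨a₁, ha₁, h1⟩ := M.neut_list_exp m a ha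
  have h3 : 1 ≤ M.C0 * 2 ^ M.C0 := by
    have : (1:ℝ) ≤ 2 ^ M.C0 := Real.one_le_rpow (by norm_num) (by linarith)
    nlinarith
  have hlog : 0 ≤ Real.log (M.C0 * 2 ^ M.C0) := Real.log_nonneg h3
  refine ⟨Real.log (M.C0 * 2 ^ M.C0) + M.C0 * a₁, by have := ha.trans ha₁; positivity, ?_⟩
  intro r hr L
  induction L with
  | nil => intro _ _ _; simp [M.len.one]
  | cons q L ih =>
    intro hL hw hq
    rw [List.length_cons] at hL
    have ih' := ih (by omega) (fun q hq' => hw q (List.mem_cons_of_mem _ hq'))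
      fun q hq' => hq q (List.mem_cons_of_mem _ hq')
    obtain ⟨hq1, hq2⟩ := hq q (List.mem_cons_self ..)
    have hwq := hw q (List.mem_cons_self ..)
    obtain ⟨u, hu, hue, hun⟩ := h1 r hr (L.map fun q => M.ex (q.2.1 • M.X q.1)) (by
      rw [List.length_map]; omega) (by
      intro z hz
      rw [List.mem_map] at hz
      obtain ⟨p, hp, rfl⟩ := hz
      refine ⟨p.2.1 • M.X p.1, ?_, rfl, ?_⟩
      · have := Submodule.smul_mem _ p.2.1 (M.X_mem p.1)
        rwa [hw p (List.mem_cons_of_mem _ hp)] at this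
      · rw [map_smul_eq_mul, Real.norm_eq_abs]
        exact (mul_le_of_le_one_right (abs_nonneg _) (M.X_le _)).trans
          (hq p (List.mem_cons_of_mem _ hp)).1)
    set T := (L.map fun q => M.ex (q.2.1 • M.X q.1)).prod with hT
    set T' := (L.map fun q => M.ex (q.2.2 • M.X q.1)).prod with hT'
    rw [List.map_cons, List.map_cons, List.prod_cons, List.prod_cons, ← hT, ← hT', List.length_cons]
    have e1 : (M.ex (q.2.2 • M.X q.1) * T')⁻¹ * (M.ex (q.2.1 • M.X q.1) * T) =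
        (T'⁻¹ * T) * (T⁻¹ * ((M.ex (q.2.2 • M.X q.1))⁻¹ * M.ex (q.2.1 • M.X q.1)) * T) := by group
    have e2 : (M.ex (q.2.2 • M.X q.1))⁻¹ * M.ex (q.2.1 • M.X q.1) =
        M.ex ((q.2.1 - q.2.2) • M.X q.1) := by
      rw [← M.ex_neg, ← neg_smul, ← M.ex_add]
      congr 2
      ring
    have e3 : T⁻¹ * M.ex ((q.2.1 - q.2.2) • M.X q.1) * T =
        M.ex (M.Ad (M.ex (-u)) ((q.2.1 - q.2.2) • M.X q.1)) := by
      rw [M.ex_Ad, M.ex_neg, inv_inv, hue]
    rw [e1, e2, e3]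
    have h4 : (M.l ((T'⁻¹ * T) * M.ex (M.Ad (M.ex (-u)) ((q.2.1 - q.2.2) • M.X q.1))) : ℝ) ≤
        M.l (T'⁻¹ * T) + M.l (M.ex (M.Ad (M.ex (-u)) ((q.2.1 - q.2.2) • M.X q.1))) := by
      exact_mod_cast M.len.mul _ _
    have h5 : M.nm (M.Ad (M.ex (-u)) ((q.2.1 - q.2.2) • M.X q.1)) ≤ 1 := by
      refine (M.Ad_ex_le (-u) _).trans ?_
      rw [map_neg_eq_map]
      have e0 : 1 ≤ Real.exp (a₁ * (r + 1)) :=
        Real.one_le_exp (mul_nonneg (ha.trans ha₁) (by linarith))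
      have n1 : 0 ≤ M.nm u := apply_nonneg _ _
      have h6 : (1 + M.nm u) ^ M.C0 ≤ (2 * Real.exp (a₁ * (r + 1))) ^ M.C0 :=
        Real.rpow_le_rpow (by positivity) (by linarith) (by linarith)
      rw [Real.mul_rpow (by norm_num) (by positivity), ← Real.exp_mul] at h6
      have h7 : M.nm ((q.2.1 - q.2.2) • M.X q.1) ≤
          Real.exp (-((Real.log (M.C0 * 2 ^ M.C0) + M.C0 * a₁) * (r + 1))) := by
        rw [map_smul_eq_mul, Real.norm_eq_abs, abs_sub_comm]
        exact (mul_le_of_le_one_right (abs_nonneg _) (M.X_le _)).trans hq2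
      calc M.C0 * (1 + M.nm u) ^ M.C0 * M.nm ((q.2.1 - q.2.2) • M.X q.1)
          ≤ M.C0 * (2 ^ M.C0 * Real.exp (a₁ * (r + 1) * M.C0)) *
            Real.exp (-((Real.log (M.C0 * 2 ^ M.C0) + M.C0 * a₁) * (r + 1))) := by
            refine mul_le_mul (mul_le_mul_of_nonneg_left h6 (by linarith)) h7 (apply_nonneg _ _)
              (by positivity)
        _ = Real.exp (Real.log (M.C0 * 2 ^ M.C0)) * Real.exp (a₁ * (r + 1) * M.C0) *
            Real.exp (-((Real.log (M.C0 * 2 ^ M.C0) + M.C0 * a₁) * (r + 1))) := by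
            rw [Real.exp_log (by positivity)]; ring
        _ = Real.exp (-(Real.log (M.C0 * 2 ^ M.C0) * r)) := by
            rw [← Real.exp_add, ← Real.exp_add]; congr 1; ring
        _ ≤ 1 := by
            rw [Real.exp_le_one_iff]
            have : 0 ≤ Real.log (M.C0 * 2 ^ M.C0) * r := by positivity
            linarith
    have h8 := M.met_V (M.Ad (M.ex (-u)) ((q.2.1 - q.2.2) • M.X q.1))
    push_cast
    nlinarith

theorem cube_card {m : ℕ} (N : ℕ) {W : Set (Fin m → ℤ)} (hW : ∀ w ∈ W, ∀ i, |w i| ≤ (N : ℤ)) :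
    W.Finite ∧ W.ncard ≤ (2 * N + 1) ^ m := by
  have h1 : W ⊆ ↑(Finset.Icc (fun _ : Fin m => -(N : ℤ)) (fun _ => (N : ℤ))) := by
    intro w hw
    rw [Finset.coe_Icc, Set.mem_Icc, Pi.le_def, Pi.le_def]
    exact ⟨fun i => (abs_le.1 (hW w hw i)).1, fun i => (abs_le.1 (hW w hw i)).2⟩
  refine ⟨(Finset.finite_toSet _).subset h1, ?_⟩
  refine (Set.ncard_le_ncard h1 (Finset.finite_toSet _)).trans ?_
  rw [Set.ncard_coe_finset, Pi.card_Icc]
  simp only [Int.card_Icc, Finset.prod_const, Finset.card_univ, Fintype.card_fin]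
  refine Nat.pow_le_pow_left ?_ m
  omega

/-- a net from cells: abstract form -/
theorem net_of_cells {α : Type*} {m : ℕ} (Y : Set α) (cell : α → Fin m → ℤ) (N : ℕ)
    (hN : ∀ y ∈ Y, ∀ i, |cell y i| ≤ (N : ℤ)) :
    ∃ F : Finset α, F.card ≤ (2 * N + 1) ^ m ∧ (∀ y ∈ F, y ∈ Y) ∧
      ∀ y ∈ Y, ∃ y' ∈ F, cell y' = cell y := by
  classical
  obtain ⟨hfin, hcard⟩ := cube_card N (W := cell '' Y) (by
    rintro _ ⟨y, hy, rfl⟩
    exact hN y hy)
  have hch : ∀ q : cell '' Y, ∃ y ∈ Y, cell y = q := fun q => q.2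
  choose rep hrep hrep' using hch
  haveI : Fintype (cell '' Y) := hfin.fintype
  refine ⟨Finset.univ.image rep, ?_, ?_, ?_⟩
  · refine Finset.card_image_le.trans ?_
    rw [Finset.card_univ]
    rwa [← Nat.card_eq_fintype_card, Nat.card_coe_set_eq]
  · intro y hy
    rw [Finset.mem_image] at hy
    obtain ⟨q, -, rfl⟩ := hy
    exact hrep q
  · intro y hy
    exact ⟨rep ⟨cell y, y, hy, rfl⟩, Finset.mem_image_of_mem _ (Finset.mem_univ _), hrep' _⟩

theorem ofFn_map {α β : Type*} {m : ℕ} (f : α → β) (g : Fin m → α) :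
    (List.ofFn fun t => f (g t)) = (List.ofFn g).map f := by
  rw [List.map_ofFn]
  rfl

/-- `Y_net` -/
theorem gY_net {c : ℝ} (hc : 1 ≤ c) : ∃ C : ℝ, 1 ≤ C ∧ ∀ r : ℝ, 0 ≤ r →
    ∃ F : Finset M.NR, (F.card : ℝ) ≤ Real.exp (C * (r + 1)) ∧ (∀ y ∈ F, y ∈ M.gY c r) ∧
      ∀ y ∈ M.gY c r, ∃ y' ∈ F, (M.l (M.NR.subtype (y'⁻¹ * y)) : ℝ) ≤ C := by
  classical
  have hC0 := M.one_le_C0
  -- size of the coefficients
  obtain ⟨a, ha, hcoef⟩ : ∃ a : ℝ, 0 ≤ a ∧ ∀ r : ℝ, 0 ≤ r →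
      M.C0 * (1 + c * Real.exp (c * r)) ^ M.C0 ≤ Real.exp (a * (r + 1)) := by
    have h3 : 1 ≤ M.C0 * 2 ^ M.C0 := by
      have : (1:ℝ) ≤ 2 ^ M.C0 := Real.one_le_rpow (by norm_num) (by linarith)
      nlinarith
    have hlog : 0 ≤ Real.log (M.C0 * 2 ^ M.C0) := Real.log_nonneg h3
    refine ⟨Real.log (M.C0 * 2 ^ M.C0) + M.C0 * (2 * c), by positivity, fun r hr => ?_⟩
    have h1 := exp_bound hc hr
    have h2 : 1 ≤ Real.exp (2 * c * (r + 1)) := Real.one_le_exp (by positivity)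
    calc M.C0 * (1 + c * Real.exp (c * r)) ^ M.C0
        ≤ M.C0 * (2 * Real.exp (2 * c * (r + 1))) ^ M.C0 := by
          refine mul_le_mul_of_nonneg_left (Real.rpow_le_rpow (by positivity) (by linarith)
            (by linarith)) (by linarith)
      _ = Real.exp (Real.log (M.C0 * 2 ^ M.C0)) * Real.exp (2 * c * (r + 1) * M.C0) := by
          rw [Real.mul_rpow (by norm_num) (by positivity), ← Real.exp_mul,
            Real.exp_log (by positivity)]
          ring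
      _ = Real.exp (Real.log (M.C0 * 2 ^ M.C0) + 2 * c * (r + 1) * M.C0) := by
          rw [← Real.exp_add]
      _ ≤ _ := Real.exp_le_exp.mpr (by nlinarith)
  obtain ⟨a', ha', hclose⟩ := M.close_words M.mN a ha
  refine ⟨1 + M.mN * (a + a' + 3) + M.mN * (2 * M.C0), by
    have : (0:ℝ) ≤ M.mN := by positivity
    have h1 : 0 ≤ (M.mN : ℝ) * (a + a' + 3) := by positivity
    have h2 : 0 ≤ (M.mN : ℝ) * (2 * M.C0) := by positivity
    linarith, ?_⟩
  intro r hr
  -- coordinates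
  have hex : ∀ y : M.NR, ∃ x : Fin M.mN → ℝ, y ∈ M.gY c r →
      (∀ t, |x t| ≤ Real.exp (a * (r + 1))) ∧
      (y : S) = (List.ofFn fun t => M.ex (x t • M.X (M.jN t))).prod := by
    intro y
    by_cases hy : y ∈ M.gY c r
    · obtain ⟨v, hv, hvn, hve⟩ := hy
      obtain ⟨x, hx, hxe⟩ := M.gen_N v hv
      refine ⟨x, fun _ => ⟨fun t => (hx t).trans (le_trans ?_ (hcoef r hr)), by rw [← hve, hxe]⟩⟩
      refine mul_le_mul_of_nonneg_left ?_ (by linarith)
      exact Real.rpow_le_rpow (by have : 0 ≤ M.nm v := apply_nonneg _ _; positivity) (by linarith)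
        (by linarith)
    · exact ⟨0, fun h => absurd h hy⟩
  choose x hx using hex
  set δ : ℝ := Real.exp (-(a' * (r + 1))) with hδ
  have hδ0 : 0 < δ := Real.exp_pos _
  set N : ℕ := ⌈Real.exp (a * (r + 1)) / δ⌉₊ + 1 with hN
  obtain ⟨F, hF1, hF2, hF3⟩ := net_of_cells (M.gY c r) (fun y t => ⌊x y t / δ⌋) N (by
    intro y hy t
    have h1 := (hx y hy).1 t
    have h2 : |x y t / δ| ≤ Real.exp (a * (r + 1)) / δ := by
      rw [abs_div, abs_of_pos hδ0]
      exact div_le_div_of_nonneg_right h1 hδ0.le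
    have h3 := Nat.le_ceil (Real.exp (a * (r + 1)) / δ)
    have h4 := Int.floor_le (x y t / δ)
    have h5 := Int.lt_floor_add_one (x y t / δ)
    have h6 : |((⌊x y t / δ⌋ : ℤ) : ℝ)| ≤ (N : ℝ) := by
      rw [hN, abs_le]
      push_cast
      have h7 := abs_le.1 h2
      constructor
      · linarith
      · linarith
    exact_mod_cast h6)
  refine ⟨F, ?_, hF2, ?_⟩
  · have h1 : (F.card : ℝ) ≤ ((2 * N + 1) ^ M.mN : ℕ) := by exact_mod_cast hF1
    refine h1.trans ?_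
    push_cast
    have h2 : (N : ℝ) ≤ Real.exp (a * (r + 1)) / δ + 2 := by
      rw [hN]
      push_cast
      have := (Nat.ceil_lt_add_one
        (show 0 ≤ Real.exp (a * (r + 1)) / δ by positivity)).le
      linarith
    have h3 : Real.exp (a * (r + 1)) / δ = Real.exp ((a + a') * (r + 1)) := by
      rw [hδ, ← Real.exp_sub]; congr 1; ring
    have h4 : 1 ≤ Real.exp ((a + a') * (r + 1)) := Real.one_le_exp (by positivity)
    have h5 : (2 * (N : ℝ) + 1) ≤ Real.exp ((a + a' + 3) * (r + 1)) := by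
      calc 2 * (N : ℝ) + 1 ≤ 7 * Real.exp ((a + a') * (r + 1)) := by
            rw [h3] at h2; linarith
        _ ≤ Real.exp 3 * Real.exp ((a + a') * (r + 1)) := by
            refine mul_le_mul_of_nonneg_right ?_ (Real.exp_pos _).le
            have h6 : (2:ℝ) ≤ Real.exp 1 := by have := Real.add_one_le_exp (1 : ℝ); linarith
            have h7 : Real.exp 3 = Real.exp 1 * Real.exp 1 * Real.exp 1 := by
              rw [← Real.exp_add, ← Real.exp_add]; norm_num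
            rw [h7]
            nlinarith [Real.exp_pos (1:ℝ)]
        _ = Real.exp (3 + (a + a') * (r + 1)) := by rw [← Real.exp_add]
        _ ≤ _ := Real.exp_le_exp.mpr (by nlinarith)
    calc (2 * (N : ℝ) + 1) ^ M.mN ≤ Real.exp ((a + a' + 3) * (r + 1)) ^ M.mN :=
          pow_le_pow_left₀ (by positivity) h5 _
      _ = Real.exp (M.mN * ((a + a' + 3) * (r + 1))) := by rw [Real.exp_nat_mul]
      _ ≤ _ := by
          refine Real.exp_le_exp.mpr ?_
          have h8 : (0:ℝ) ≤ (M.mN : ℝ) * (2 * M.C0) := by positivity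
          nlinarith
  · intro y hy
    obtain ⟨y', hy', hcell⟩ := hF3 y hy
    refine ⟨y', hy', ?_⟩
    have hyY := hx y hy
    have hyY' := hx y' (hF2 y' hy')
    have hdist : ∀ t, |x y' t - x y t| ≤ δ := by
      intro t
      have h1 : ⌊x y' t / δ⌋ = ⌊x y t / δ⌋ := congrFun hcell t
      have h4 := Int.floor_le (x y t / δ)
      have h5 := Int.lt_floor_add_one (x y t / δ)
      have h4' := Int.floor_le (x y' t / δ)
      have h5' := Int.lt_floor_add_one (x y' t / δ)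
      rw [h1] at h4' h5'
      have h6 : |x y' t / δ - x y t / δ| ≤ 1 := by
        rw [abs_le]; constructor <;> linarith
      rw [← sub_div, abs_div, abs_of_pos hδ0, div_le_one hδ0] at h6
      exact h6
    have h9 := hclose r hr (List.ofFn fun t => (M.jN t, x y t, x y' t)) (by simp) (by
      intro q hq
      rw [List.mem_ofFn] at hq
      obtain ⟨t, rfl⟩ := hq
      exact M.jN_eq t) (by
      intro q hq
      rw [List.mem_ofFn] at hq
      obtain ⟨t, rfl⟩ := hq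
      exact ⟨hyY.1 t, hdist t⟩)
    rw [← ofFn_map (fun q : M.ι × ℝ × ℝ => M.ex (q.2.2 • M.X q.1)),
      ← ofFn_map (fun q : M.ι × ℝ × ℝ => M.ex (q.2.1 • M.X q.1)), List.length_ofFn] at h9
    have e1 : M.NR.subtype (y'⁻¹ * y) = (y' : S)⁻¹ * (y : S) := rfl
    rw [e1, hyY.2, hyY'.2]
    refine h9.trans ?_
    have : 0 ≤ (M.mN : ℝ) * (a + a' + 3) := by positivity
    linarith

end RModel

end Vale.Agent.P188.Z1
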