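import Vale.Agent.P188.Z1.ModelN

/-!
# P188, H650: the dictionary facts of the real model used by the geometry
-/

set_option linter.all false

open MeasureTheory Set
open scoped commutatorElement

namespace Vale.Agent.P188.Z1

open Vale.Agent.P188.H796 Vale.Agent.P188.H615 Vale.Agent.P188.H269 Vale.Agent.P188.H131
open Vale.Agent.P188.H530 (hgt Crossed Mod)

section inst

variable {Γ : Type} [Group Γ] {k : ℕ} {η : Γ →* Multiplicative (Fin k → ℤ)} {d n : ℕ}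
  {D : MB η.ker d n}

/-- the non-neutral part is an ideal -/
theorem Conc.e_ideal {hη : Function.Surjective η} {F : Set Γ} {t : D.S}
    {M : RModel D.S Γ D.R.V k} (hM : Conc D hη F t M) (x y : D.R.V) (hy : y ∈ M.e) :
    ⁅x, y⁆ ∈ M.e := by
  rw [hM.e_eq] at hy ⊢
  have h : y ∈ eId D.AdE t := hy
  have h2 : ⁅x, y⁆ ∈ eId D.AdE t := lie_mem_right ℝ D.R.V _ x y h
  exact h2

/-- the weight spaces are graded -/
theorem Conc.lie_Vw {hη : Function.Surjective η} {F : Set Γ} {t : D.S}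
    {M : RModel D.S Γ D.R.V k} (hM : Conc D hη F t M) {b b' : (Fin k → ℝ) →L[ℝ] ℝ}
    {x y : D.R.V} (hx : x ∈ M.Vw b) (hy : y ∈ M.Vw b') : ⁅x, y⁆ ∈ M.Vw (b + b') := by
  rw [hM.Vw_eq] at hx hy ⊢
  exact lie_Vwt D hη hM.sep hx hy

/-- the neutral part is a subalgebra -/
theorem Conc.lie_Vw_zero {hη : Function.Surjective η} {F : Set Γ} {t : D.S}
    {M : RModel D.S Γ D.R.V k} (hM : Conc D hη F t M)
    {x y : D.R.V} (hx : x ∈ M.Vw 0) (hy : y ∈ M.Vw 0) : ⁅x, y⁆ ∈ M.Vw 0 := by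
  have h := hM.lie_Vw hx hy
  rwa [add_zero] at h

/-- **the dictionary facts of the real model** -/
theorem Conc.dict {hη : Function.Surjective η} {F : Set Γ} {t : D.S}
    {M : RModel D.S Γ D.R.V k} (hM : Conc D hη F t M) :
    NatHyp M ∧ (∀ x : D.R.V, ∀ y ∈ M.e, ⁅x, y⁆ ∈ M.e) ∧ (∀ x ∈ M.Vw 0, ∀ y ∈ M.Vw 0, ⁅x, y⁆ ∈ M.Vw 0) :=
  ⟨hM.natHyp, fun x y hy => hM.e_ideal x y hy, fun _ hx _ hy => hM.lie_Vw_zero hx hy⟩

end inst

/-- **The real model of `Γ` with its natural boxes, and the dictionary facts.** -/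
theorem exists_model_dict {Γ : Type} [Group Γ] {k : ℕ} {η : Γ →* Multiplicative (Fin k → ℤ)}
    (h : H187.Z0 Γ k η) : ∃ (d n : ℕ) (D : MB η.ker d n) (F : Set Γ) (t : D.S)
      (M : RModel D.S Γ D.R.V k) (B : M.NatBox), Conc D h.surj F t M ∧ M.Extra ∧
      M.η.comp M.inG = η ∧ F.Finite ∧ Subgroup.closure F = ⊤ ∧ NatHyp M ∧
      B.Bx = NBx D M.X ∧ B.Fine ∧ (∀ x : D.R.V, ∀ y ∈ M.e, ⁅x, y⁆ ∈ M.e) ∧
      (∀ x ∈ M.Vw 0, ∀ y ∈ M.Vw 0, ⁅x, y⁆ ∈ M.Vw 0) := by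
  obtain ⟨d, n, D, F, t, M, B, hM, hE, hc, hF, hgen, hN, hB, hB'⟩ := exists_model_box h
  exact ⟨d, n, D, F, t, M, B, hM, hE, hc, hF, hgen, hN, hB, hB', hM.dict.2.1, hM.dict.2.2⟩

end Vale.Agent.P188.Z1
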