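import Vale.Agent.P188.H754.Inst2

/-!
# P188, H650: decomposition of slab paths (block (N1) of note 11089)
-/

set_option linter.all false

open Set
open Agent.P188.H428 (IsLen)
open Vale.Agent.P188.H530 (hgt hgt_mul)

namespace Vale.Agent.P188.Z1.RModel

variable {S : Type} [Group S] [MeasurableSpace S] {Γ : Type} [Group Γ]
  {V : Type} [AddCommGroup V] [Module ℝ V] {k : ℕ} (M : RModel S Γ V k)

/-- the step decomposition -/
theorem sd_step : ∃ Cl : ℝ, 1 ≤ Cl ∧ ∀ (A : ℕ) (g : S), M.l g ≤ A →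
    ∃ e ∈ M.E, ∃ c ∈ M.CB ⌈M.C0 * A⌉₊, g = e * c ∧
      (M.l e : ℝ) ≤ A + Cl * ⌈M.C0 * A⌉₊ := by
  obtain ⟨Cl, hCl, hl⟩ := M.l_CB
  refine ⟨Cl, hCl, fun A g hg => ?_⟩
  obtain ⟨v, hv, c, hc, hgc⟩ := M.dec g
  have hc' : c ∈ M.CB ⌈M.C0 * A⌉₊ := by
    refine M.CB_mono ?_ hc
    refine Nat.ceil_mono (mul_le_mul_of_nonneg_left ?_ M.C0_pos.le)
    exact_mod_cast hg
  refine ⟨M.ex v, (M.mem_E _).2 ⟨v, hv, rfl⟩, c, hc', hgc, ?_⟩
  have h1 : M.ex v = g * c⁻¹ := by rw [hgc, mul_inv_cancel_right]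
  have h2 : (M.l (M.ex v) : ℝ) ≤ M.l g + M.l c⁻¹ := by
    rw [h1]; exact_mod_cast M.len.mul _ _
  rw [M.len.inv] at h2
  have h3 := hl _ _ hc'
  have h4 : (M.l g : ℝ) ≤ A := by exact_mod_cast hg
  linarith

theorem sd_θE {e : S} (he : e ∈ M.E) : M.θ e = 0 := by
  obtain ⟨v, _, rfl⟩ := (M.mem_E _).1 he
  exact M.θ_ex v

/-- moving the Cartan parts to the right -/
theorem sd_word {C L0 T L : ℝ} (hC0 : 0 ≤ C)
    (hcon : ∀ n : ℕ, ∀ c ∈ M.CB n, ∀ s ∈ M.E,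
      (M.l (c * s * c⁻¹) : ℝ) ≤ C * (M.l s + ‖M.θ c‖ + Real.log (n + 1) + 1))
    (N J : ℕ) (z : ℕ → S)
    (hz : ∀ i < J, ∃ e ∈ M.E, ∃ c ∈ M.CB N, (z i)⁻¹ * z (i + 1) = e * c ∧ (M.l e : ℝ) ≤ L0)
    (hθ : ∀ i ≤ J, ‖M.θ (z i) - M.θ (z 0)‖ ≤ T)
    (hL : C * (L0 + T + Real.log (((J * N : ℕ) : ℝ) + 1) + 1) ≤ L) :
    ∀ j ≤ J, ∃ es : List S, es.length = j ∧ (∀ e ∈ es, e ∈ M.E ∧ (M.l e : ℝ) ≤ L) ∧
      ∃ c ∈ M.CB (j * N), (z 0)⁻¹ * z j = es.prod * c ∧ M.θ c = M.θ (z j) - M.θ (z 0) := by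
  intro j
  induction j with
  | zero =>
    intro _
    refine ⟨[], rfl, by simp, 1, M.one_mem_CB _, by simp, by simp [M.θ_one]⟩
  | succ j ih =>
    intro hj
    obtain ⟨es, h1, h2, c, hc, h3, h4⟩ := ih (by omega)
    obtain ⟨e, he, d, hd, h5, h6⟩ := hz j (by omega)
    refine ⟨es ++ [c * e * c⁻¹], by simp [h1], ?_, c * d, ?_, ?_, ?_⟩
    · intro x hx
      rcases List.mem_append.1 hx with hx | hx
      · exact h2 x hx
      · rw [List.mem_singleton] at hx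
        subst hx
        refine ⟨M.E_normal.conj_mem _ he _, ?_⟩
        refine (hcon _ c hc e he).trans (le_trans ?_ hL)
        refine mul_le_mul_of_nonneg_left ?_ hC0
        have h7 : ‖M.θ c‖ ≤ T := by rw [h4]; exact hθ j (by omega)
        have h8 : Real.log (((j * N : ℕ) : ℝ) + 1) ≤ Real.log (((J * N : ℕ) : ℝ) + 1) := by
          refine Real.log_le_log (by positivity) ?_
          have : j * N ≤ J * N := Nat.mul_le_mul_right _ (by omega)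
          have : ((j * N : ℕ) : ℝ) ≤ ((J * N : ℕ) : ℝ) := by exact_mod_cast this
          linarith
        linarith
    · rw [Nat.succ_mul]
      exact M.CB_mul hc hd
    · rw [List.prod_append, List.prod_singleton]
      calc (z 0)⁻¹ * z (j + 1) = ((z 0)⁻¹ * z j) * ((z j)⁻¹ * z (j + 1)) := by group
        _ = es.prod * c * (e * d) := by rw [h3, h5]
        _ = es.prod * (c * e * c⁻¹) * (c * d) := by group
    · rw [M.θ_mul, h4]
      have h9 : M.θ ((z j)⁻¹ * z (j + 1)) = M.θ d := by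
        rw [h5, M.θ_mul, M.sd_θE he, zero_add]
      have h10 : M.θ (z (j + 1)) = M.θ (z j) + M.θ ((z j)⁻¹ * z (j + 1)) := by
        rw [← M.θ_mul, mul_inv_cancel_left]
      rw [h10, h9]
      abel

/-- the polynomial in an exponentially large parameter -/
theorem sd_poly (δ : ℝ) (hδ : 0 < δ) (N : ℕ) : ∃ c : ℝ, 0 < c ∧ c ≤ 1 ∧ ∃ R1 : ℝ, ∀ R : ℝ,
    R1 ≤ R → 1 ≤ R → ∀ n j : ℕ, (j : ℝ) ≤ Real.exp (c * R) →
    (n : ℝ) ≤ (M.C0 * (1 + 2 * R) + 1) + j * N →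
    M.C0 * (1 + n) ^ M.deg ≤ Real.exp (δ * R) := by
  have hC0 := M.C0_pos
  refine ⟨min 1 (δ / (2 * (M.deg + 1))), by positivity, min_le_left _ _, ?_⟩
  set c := min 1 (δ / (2 * ((M.deg : ℝ) + 1))) with hc
  have hc0 : 0 < c := by rw [hc]; positivity
  have hc2 : c * M.deg ≤ δ / 2 := by
    have h1 : c ≤ δ / (2 * ((M.deg : ℝ) + 1)) := min_le_right _ _
    have h2 : c * ((M.deg : ℝ) + 1) ≤ δ / 2 := by
      calc c * ((M.deg : ℝ) + 1) ≤ δ / (2 * ((M.deg : ℝ) + 1)) * ((M.deg : ℝ) + 1) := by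
            gcongr
        _ = δ / 2 := by field_simp
    nlinarith
  set K : ℝ := 2 + M.C0 + 2 * M.C0 / c + N with hK
  have hK0 : 0 ≤ K := by rw [hK]; positivity
  refine ⟨2 * (M.C0 * K ^ M.deg) / δ, fun R hR1 hR n j hj hn => ?_⟩
  have he : c * R + 1 ≤ Real.exp (c * R) := Real.add_one_le_exp _
  have he1 : 1 ≤ Real.exp (c * R) := Real.one_le_exp (by positivity)
  have h1 : (1 + n : ℝ) ≤ K * Real.exp (c * R) := by
    have h2 : M.C0 * (2 * R) ≤ 2 * M.C0 / c * Real.exp (c * R) := by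
      have h3 : M.C0 * (2 * R) = 2 * M.C0 / c * (c * R) := by field_simp
      rw [h3]
      exact mul_le_mul_of_nonneg_left (by linarith) (by positivity)
    have h4 : (j : ℝ) * N ≤ N * Real.exp (c * R) := by
      rw [mul_comm]
      exact mul_le_mul_of_nonneg_left hj (Nat.cast_nonneg _)
    have h5 : (2 + M.C0 : ℝ) ≤ (2 + M.C0) * Real.exp (c * R) :=
      le_mul_of_one_le_right (by positivity) he1
    rw [hK]
    nlinarith
  have h2 : (1 + n : ℝ) ^ M.deg ≤ K ^ M.deg * Real.exp (δ / 2 * R) := by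
    calc (1 + n : ℝ) ^ M.deg ≤ (K * Real.exp (c * R)) ^ M.deg := by gcongr
      _ = K ^ M.deg * Real.exp (c * M.deg * R) := by
        rw [mul_pow, ← Real.exp_nat_mul]; congr 2; ring
      _ ≤ K ^ M.deg * Real.exp (δ / 2 * R) := by gcongr
  have h3 : M.C0 * K ^ M.deg ≤ Real.exp (δ / 2 * R) := by
    have h4 : 2 * (M.C0 * K ^ M.deg) ≤ R * δ := by
      rwa [div_le_iff₀ hδ] at hR1
    have h5 := Real.add_one_le_exp (δ / 2 * R)
    linarith
  calc M.C0 * (1 + n : ℝ) ^ M.deg ≤ M.C0 * (K ^ M.deg * Real.exp (δ / 2 * R)) := by gcongr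
    _ = (M.C0 * K ^ M.deg) * Real.exp (δ / 2 * R) := by ring
    _ ≤ Real.exp (δ / 2 * R) * Real.exp (δ / 2 * R) := by gcongr
    _ = Real.exp (δ * R) := by rw [← Real.exp_add]; congr 1; ring

/-- **Slab paths**: a path of exponentially many bounded steps in a slab of thickness `2 R` ends
at `s' * ex y` with `l s' ≤ C' R` (constant independent of everything) and `y` neutral of size
`exp (δ R)`. -/
theorem slab_dec (hX : M.Extra) : ∃ C' : ℕ, ∀ (A : ℕ) (δ : ℝ), 0 < δ →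
    ∃ c : ℝ, 0 < c ∧ ∃ R1 : ℕ, ∀ R : ℕ, R1 ≤ R → ∀ j : ℕ, (j : ℝ) ≤ Real.exp (c * R) →
    ∀ z : ℕ → S, (∀ i < j, M.l ((z i)⁻¹ * z (i + 1)) ≤ A) →
    (∀ i ≤ j, ‖M.θ (z i) - M.θ (z 0)‖ ≤ 2 * R) →
    ∃ s', ∃ y ∈ M.Vw 0, (z 0)⁻¹ * z j = s' * M.ex y ∧ M.l s' ≤ C' * R ∧
      M.nm y ≤ Real.exp (δ * R) := by
  obtain ⟨Ce, hCe, hE⟩ := H754.E_prod_R M hX
  obtain ⟨Cc, hCc, hcon⟩ := H754.con_R M
  obtain ⟨Cl, hCl, hstep⟩ := M.sd_step
  obtain ⟨Ct, hCt, hτ⟩ := M.l_τ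
  have hC0 := M.C0_pos
  refine ⟨⌈Ce * (4 * Cc + 3) + 3 * Ct⌉₊, fun A δ hδ => ?_⟩
  set N : ℕ := ⌈M.C0 * A⌉₊ with hN
  set L0 : ℝ := A + Cl * N with hL0
  have hL00 : 0 ≤ L0 := by rw [hL0]; positivity
  obtain ⟨c, hc0, hc1, R0, hR0⟩ := M.sd_poly δ hδ N
  refine ⟨c, hc0, ⌈max R0 (L0 + Real.log (N + 1) + 1)⌉₊ + 1, fun R hR j hj z hz hθ => ?_⟩
  have hRr : max R0 (L0 + Real.log (N + 1) + 1) + 1 ≤ (R : ℝ) := by
    have h1 : ((⌈max R0 (L0 + Real.log (N + 1) + 1)⌉₊ + 1 : ℕ) : ℝ) ≤ R := by exact_mod_cast hR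
    push_cast at h1
    have h2 := Nat.le_ceil (max R0 (L0 + Real.log ((N : ℝ) + 1) + 1))
    linarith
  have hlogN : 0 ≤ Real.log ((N : ℝ) + 1) := Real.log_nonneg (by
    have : (0 : ℝ) ≤ N := Nat.cast_nonneg _
    linarith)
  have hR2 : R0 ≤ (R : ℝ) := by have := le_max_left R0 (L0 + Real.log ((N : ℝ) + 1) + 1); linarith
  have hR3 : L0 + Real.log ((N : ℝ) + 1) + 1 ≤ (R : ℝ) := by
    have := le_max_right R0 (L0 + Real.log ((N : ℝ) + 1) + 1); linarith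
  have hR1 : (1 : ℝ) ≤ R := by linarith
  have hexp1 : 1 ≤ Real.exp (c * R) := Real.one_le_exp (by positivity)
  -- the logarithms
  have hlog1 : Real.log (((j * N : ℕ) : ℝ) + 1) ≤ R + Real.log ((N : ℝ) + 1) := by
    have h1 : ((j * N : ℕ) : ℝ) + 1 ≤ Real.exp (c * R) * ((N : ℝ) + 1) := by
      push_cast
      have : (j : ℝ) * N ≤ Real.exp (c * R) * N :=
        mul_le_mul_of_nonneg_right hj (Nat.cast_nonneg _)
      nlinarith
    have h2 := Real.log_le_log (by positivity) h1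
    rw [Real.log_mul (by positivity) (by positivity), Real.log_exp] at h2
    have h3 : c * R ≤ R := by nlinarith
    linarith
  have hlog2 : Real.log ((j : ℝ) + 1) ≤ R + 1 := by
    have h1 : (j : ℝ) + 1 ≤ Real.exp (c * R) * Real.exp 1 := by
      have h2 : (2 : ℝ) ≤ Real.exp 1 := by have := Real.add_one_le_exp (1 : ℝ); linarith
      nlinarith
    have h2 := Real.log_le_log (by positivity) h1
    rw [← Real.exp_add, Real.log_exp] at h2
    have h3 : c * R ≤ R := by nlinarith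
    linarith
  obtain ⟨es, h1, h2, d, hd, h3, h4⟩ := M.sd_word (L := Cc * (4 * R)) hCc hcon N j z
    (fun i hi => by
      obtain ⟨e, he, c', hc', h5, h6⟩ := hstep A _ (hz i hi)
      exact ⟨e, he, c', hc', h5, h6⟩) hθ (by
      refine mul_le_mul_of_nonneg_left ?_ hCc
      linarith) j le_rfl
  have h5 := hE (Cc * (4 * R)) es (by positivity) h2
  rw [h1] at h5
  -- the height of the Cartan part
  obtain ⟨w, hw⟩ : ∃ w : Fin k → ℤ, M.η d = Multiplicative.ofAdd w := ⟨(M.η d).toAdd, rfl⟩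
  have hwθ : M.θ (M.τ w) = M.θ d := M.θ_of_η (by rw [M.η_τ, hw])
  have hw2 : ∀ i, |(w i : ℝ)| ≤ 2 * R := by
    intro i
    have h6 : ‖M.θ d‖ ≤ 2 * R := by rw [h4]; exact hθ j le_rfl
    rw [← hwθ, M.θ_τ] at h6
    exact (pi_norm_le_iff_of_nonneg (by positivity)).1 h6 i
  have h7 : (M.τ w)⁻¹ * d ∈ M.CB (⌈M.C0 * (1 + 2 * R)⌉₊ + j * N) :=
    M.CB_mul (M.CB_inv (M.τ_mem_CB (by positivity) hw2)) hd
  obtain ⟨y, hy, hye, hyn⟩ := M.C_ker _ _ h7 (by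
    rw [map_mul, map_inv, M.η_τ, hw, inv_mul_cancel])
  refine ⟨es.prod * M.τ w, y, hy, ?_, ?_, ?_⟩
  · rw [hye, h3]; group
  · have h8 : (M.l (es.prod * M.τ w) : ℝ) ≤ M.l es.prod + M.l (M.τ w) := by
      exact_mod_cast M.len.mul _ _
    have h9 := hτ w (2 * R) (by positivity) hw2
    have h10 : (M.l es.prod : ℝ) ≤ Ce * ((4 * Cc + 3) * R) := by
      refine h5.trans (mul_le_mul_of_nonneg_left ?_ hCe)
      linarith
    have h11 : Ct * (1 + 2 * R) ≤ Ct * (3 * R) :=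
      mul_le_mul_of_nonneg_left (by linarith) (by linarith)
    have h12 : (M.l (es.prod * M.τ w) : ℝ) ≤ (Ce * (4 * Cc + 3) + 3 * Ct) * R := by
      linarith
    have h13 : (Ce * (4 * Cc + 3) + 3 * Ct) * R ≤ (⌈Ce * (4 * Cc + 3) + 3 * Ct⌉₊ : ℝ) * R :=
      mul_le_mul_of_nonneg_right (Nat.le_ceil _) (by positivity)
    have h14 : (M.l (es.prod * M.τ w) : ℝ) ≤
        ((⌈Ce * (4 * Cc + 3) + 3 * Ct⌉₊ * R : ℕ) : ℝ) := by
      push_cast
      exact h12.trans h13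
    exact_mod_cast h14
  · refine hyn.trans (hR0 R hR2 hR1 _ j hj ?_)
    push_cast
    have h15 := (Nat.ceil_lt_add_one (a := M.C0 * (1 + 2 * (R : ℝ))) (by positivity)).le
    linarith

end Vale.Agent.P188.Z1.RModel
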